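import Vale.Agent.P247.SDefs
import Vale.Agent.P247.Bridge

open scoped Manifold ContDiff
open MeasureTheory Vale.Agent.P204 Vale.Agent.P247.HS

/-- Deformation of a hypersymplectic structure to a pointwise orthogonal one, with an almost
optimal pointwise lower bound for the three squares. -/
theorem Vale.Agent.Results.P247.Pinched.result
    {X : Type*} [TopologicalSpace X] [T2Space X] [CompactSpace X] [ConnectedSpace X]
    [ChartedSpace (EuclideanSpace ℝ (Fin 4)) X] [IsManifold (𝓡 4) ∞ X]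
    [MeasurableSpace X] [BorelSpace X]
    (μ : TopForm (EuclideanSpace ℝ (Fin 4)) X) (hμ : IsVolumeForm stdBasis μ)
    (ν : Measure X) (hν : IsVolumeMeasure stdBasis μ ν)
    (om : Fin 3 → BilField (EuclideanSpace ℝ (Fin 4)) X) (hom : IsHyper stdBasis μ om) :
    (∃ Om, IsFamily stdBasis μ om Om ∧ IsOrth stdBasis μ (Om 1)) ∧
    ((∀ i j, pairing stdBasis μ ν (om i) (om j) = if i = j then 1 else 0) →
      (∀ φ, IsClosedTwoForm φ → (∀ i, pairing stdBasis μ ν φ (om i) = 0) →
        pairing stdBasis μ ν φ φ ≤ 0) →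
      ∀ f : X → ℝ, Continuous f → (∀ x, 0 < f x) → ∫ x, f x ∂ν < 1 →
        ∃ Om, IsFamily stdBasis μ om Om ∧
          (∀ t ∈ Set.Icc (0 : ℝ) 1, ∀ i, SameClass stdBasis μ ν (Om t i) (om i)) ∧
          IsOrth stdBasis μ (Om 1) ∧ ∀ i x, f x ≤ ratio stdBasis μ (Om 1 i) (Om 1 i) x) :=
  Vale.Agent.P247.pinched μ hμ ν hν om hom
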